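import Vale.Agent.P022.H472.Big

/-!
P022, CM representations: definitions and the literals of the blocks.
-/

open scoped ModularForm MatrixGroups Manifold NumberField
open UpperHalfPlane Matrix CongruenceSubgroup

noncomputable section

namespace Vale.Agent.P022

/-! ### modular forms and Hecke operators -/

/-- `Γ₁(N)` as a subgroup of `GL₂(ℝ)` -/
abbrev Gam (N : ℕ) : Subgroup (GL (Fin 2) ℝ) :=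
  ((Gamma1 N : Subgroup SL(2, ℤ)) : Subgroup (GL (Fin 2) ℝ))

/-- `M_k(Γ₁(N))` -/
abbrev MF (N k : ℕ) : Type := ModularForm (Gam N) (k : ℤ)

/-- the primes `ℓ ∤ 2N` -/
abbrev PA (N : ℕ) : Type := {ℓ : ℕ // ℓ.Prime ∧ ¬ ℓ ∣ 2 * N}

theorem PA.coprime {N : ℕ} (ℓ : PA N) : Nat.Coprime ℓ.1 N :=
  (Nat.Prime.coprime_iff_not_dvd ℓ.2.1).2 fun h => ℓ.2.2 (h.mul_left 2)

/-- upper triangular rational matrix `[a, b; 0, d]` -/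
def tri (a b d : ℚ) (h : a * d ≠ 0) : GL (Fin 2) ℚ :=
  GeneralLinearGroup.mkOfDetNeZero !![a, b; 0, d] (by simpa [Matrix.det_fin_two] using h)

/-- the matrix `[1, j; 0, ℓ]` -/
def up (ℓ : ℕ) (hℓ : ℓ ≠ 0) (j : ℕ) : GL (Fin 2) ℝ :=
  (tri 1 j ℓ (by simpa using hℓ)).map (algebraMap ℚ ℝ)

/-- the matrix `[ℓ, 0; 0, 1]` -/
def dn (ℓ : ℕ) (hℓ : ℓ ≠ 0) : GL (Fin 2) ℝ :=
  (tri ℓ 0 1 (by simpa using hℓ)).map (algebraMap ℚ ℝ)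

/-- a matrix `[A, B; N, ℓ]` in `SL₂(ℤ)` -/
def gd (N ℓ : ℕ) (h : Nat.Coprime ℓ N) : SL(2, ℤ) :=
  ⟨!![Nat.gcdA ℓ N, -Nat.gcdB ℓ N; (N : ℤ), (ℓ : ℤ)], by
    rw [Matrix.det_fin_two_of]
    have h1 := Nat.gcd_eq_gcd_ab ℓ N
    rw [Nat.Coprime] at h
    rw [h] at h1
    push_cast at h1
    linear_combination -h1⟩

/-- the diamond operator `⟨ℓ⟩` on functions -/
def dFun (N k : ℕ) (ℓ : PA N) (f : ℍ → ℂ) : ℍ → ℂ := f ∣[(k : ℤ)] (gd N ℓ.1 ℓ.coprime)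

/-- the Hecke operator `T_ℓ` on functions:
`∑ f ∣ [1, j; 0, ℓ] + (⟨ℓ⟩ f) ∣ [ℓ, 0; 0, 1]` -/
def tFun (N k : ℕ) (ℓ : PA N) (f : ℍ → ℂ) : ℍ → ℂ :=
  (∑ j : Fin ℓ.1, f ∣[(k : ℤ)] (up ℓ.1 ℓ.2.1.ne_zero j)) +
    (dFun N k ℓ f) ∣[(k : ℤ)] (dn ℓ.1 ℓ.2.1.ne_zero)

/-- [HK1] the diamond operator preserves `M_k(Γ₁(N))` -/
def HK1Stmt : Prop := ∀ (N k : ℕ) (_ : 0 < N) (ℓ : PA N) (f : MF N k),
  ∃ g : MF N k, (g : ℍ → ℂ) = dFun N k ℓ f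

/-- [HK2] the Hecke operator preserves `M_k(Γ₁(N))` -/
def HK2Stmt : Prop := ∀ (N k : ℕ) (_ : 0 < N) (ℓ : PA N) (f : MF N k),
  ∃ g : MF N k, (g : ℍ → ℂ) = tFun N k ℓ f

/-! ### theta series of binary forms -/

/-- the form `a x² + b x y + c y²` -/
def Qf (a b c : ℤ) (v : ℤ × ℤ) : ℤ := a * v.1 ^ 2 + b * v.1 * v.2 + c * v.2 ^ 2

/-- `a x + (b + √-D) / 2 y` -/
def ev (a b : ℤ) (D : ℕ) (v : ℤ × ℤ) : ℂ :=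
  a * v.1 + (b + Complex.I * (Real.sqrt D : ℂ)) / 2 * v.2

/-- the general term of the theta series -/
def thT (a b c : ℤ) (D κ : ℕ) (f : ℤ × ℤ → ℂ) (w : ℂ) (v : ℤ × ℤ) : ℂ :=
  f v * ev a b D v ^ κ * Complex.exp (2 * Real.pi * Complex.I * (Qf a b c v : ℂ) * w)

/-- the theta series -/
def th (a b c : ℤ) (D κ : ℕ) (f : ℤ × ℤ → ℂ) (w : ℂ) : ℂ := ∑' v, thT a b c D κ f w v

/-- periodic mod `m` -/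
def Per (m : ℕ) (f : ℤ × ℤ → ℂ) : Prop := ∀ v w : ℤ × ℤ, f (v + (m : ℤ) • w) = f v

/-- finite Fourier transform -/
def hatF (M : ℕ) (f : ℤ × ℤ → ℂ) (v : ℤ × ℤ) : ℂ :=
  ∑ i : Fin M, ∑ j : Fin M, f ((i.1 : ℤ), (j.1 : ℤ)) *
    Complex.exp (2 * Real.pi * Complex.I * ((v.1 * j.1 - v.2 * i.1 : ℤ) : ℂ) / M)

/-- [PO] Poisson summation with the factor `ev ^ κ` -/
def POStmt : Prop := ∀ (a b c : ℤ) (D : ℕ) (_ : 0 < a) (_ : 0 < D) (_ : b ^ 2 - 4 * a * c = -(D : ℤ))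
  (κ M : ℕ) (_ : 0 < M) (f : ℤ × ℤ → ℂ) (_ : Per M f) (w : ℂ) (_ : 0 < w.im),
  Summable (thT a b c D κ f w) ∧
  th a b c D κ f w = (M : ℂ) ^ κ * (Complex.I / ((Real.sqrt D : ℂ) * M ^ 2 * w)) ^ (κ + 1) *
    th a b c D κ (hatF M f) (-1 / (D * M ^ 2 * w))

/-- the quadratic Gauss sum `∑_{h mod C} exp(-2πi d Q(h) / C)` -/
def G1 (a b c d : ℤ) (C : ℕ) : ℂ :=
  ∑ i : Fin C, ∑ j : Fin C,
    Complex.exp (-(2 * Real.pi * Complex.I * ((d * Qf a b c ((i.1 : ℤ), (j.1 : ℤ)) : ℤ) : ℂ) / C))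

/-- [HAT] the finite Fourier transform of `h ↦ f(d h) exp(-2πi d Q(h) / C)`, `C = m² C'`,
`D ∣ C'`: it lives on the image of `-R`, `R = √-D = [-b, -2c; 2a, b]` -/
def HATStmt : Prop := ∀ (a b c : ℤ) (D : ℕ) (_ : 0 < a) (_ : 0 < D)
  (_ : b ^ 2 - 4 * a * c = -(D : ℤ)) (m C' : ℕ) (_ : 0 < m) (_ : 0 < C') (_ : D ∣ C')
  (f : ℤ × ℤ → ℂ) (_ : Per m f) (A d : ℤ) (_ : ((m ^ 2 * C' : ℕ) : ℤ) ∣ A * d - 1),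
  (∀ v : ℤ × ℤ, (∀ α : ℤ × ℤ, v ≠ (b * α.1 + 2 * c * α.2, -(2 * a * α.1 + b * α.2))) →
    hatF (m ^ 2 * C') (fun h => f (d • h) * Complex.exp
      (-(2 * Real.pi * Complex.I * ((d * Qf a b c h : ℤ) : ℂ) / (m ^ 2 * C' : ℕ)))) v = 0) ∧
  (∀ α : ℤ × ℤ,
    hatF (m ^ 2 * C') (fun h => f (d • h) * Complex.exp
      (-(2 * Real.pi * Complex.I * ((d * Qf a b c h : ℤ) : ℂ) / (m ^ 2 * C' : ℕ))))
      (b * α.1 + 2 * c * α.2, -(2 * a * α.1 + b * α.2)) =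
    f α * Complex.exp (2 * Real.pi * Complex.I * ((A * Qf a b c α : ℤ) : ℂ) / (m ^ 2 * C' : ℕ)) *
      (m ^ 2 * G1 a b c d C'))

/-- [GAUSS1] the Gauss sum for `d = 1` -/
def GAUSS1Stmt : Prop := ∀ (a b c : ℤ) (D : ℕ) (_ : 0 < a) (_ : 0 < D)
  (_ : b ^ 2 - 4 * a * c = -(D : ℤ)) (C : ℕ) (_ : 0 < C) (_ : D ∣ C),
  G1 a b c 1 C = -Complex.I * C * (Real.sqrt D : ℂ)

/-- [GAUSS] the Gauss sum in general -/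
def GAUSSStmt : Prop := ∀ (a b c : ℤ) (D : ℕ) (_ : 0 < a) (_ : Odd D)
  (_ : b ^ 2 - 4 * a * c = -(D : ℤ)) (C : ℕ) (_ : 0 < C) (_ : D ∣ C) (d : ℤ) (_ : IsCoprime d C),
  G1 a b c d C = -Complex.I * jacobiSym d D * C * (Real.sqrt D : ℂ)

/-- [LAW] the law under `Γ₀(D m²)` -/
def LAWStmt : Prop := ∀ (a b c : ℤ) (D : ℕ) (_ : 0 < a) (_ : Odd D)
  (_ : b ^ 2 - 4 * a * c = -(D : ℤ)) (κ m : ℕ) (_ : 0 < m) (f : ℤ × ℤ → ℂ) (_ : Per m f)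
  (A B C d : ℤ) (_ : A * d - B * C = 1) (_ : ((D * m ^ 2 : ℕ) : ℤ) ∣ C) (w : ℂ) (_ : 0 < w.im),
  th a b c D κ f ((A * w + B) / (C * w + d)) =
    jacobiSym d D * (C * w + d) ^ (κ + 1) * th a b c D κ (fun v => f (d • v)) w

/-- [BDD] boundedness at all cusps (no condition on `C`) -/
def BDDStmt : Prop := ∀ (a b c : ℤ) (D : ℕ) (_ : 0 < a) (_ : 0 < D)
  (_ : b ^ 2 - 4 * a * c = -(D : ℤ)) (κ m : ℕ) (_ : 0 < m) (f : ℤ × ℤ → ℂ) (_ : Per m f)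
  (A B C d : ℤ) (_ : A * d - B * C = 1),
  ∃ K : ℝ, ∀ w : ℂ, 1 ≤ w.im →
    ‖th a b c D κ f ((A * w + B) / (C * w + d))‖ ≤ K * ‖C * w + d‖ ^ (κ + 1)

/-- [HOL] holomorphy -/
def HOLStmt : Prop := ∀ (a b c : ℤ) (D : ℕ) (_ : 0 < a) (_ : 0 < D)
  (_ : b ^ 2 - 4 * a * c = -(D : ℤ)) (κ m : ℕ) (_ : 0 < m) (f : ℤ × ℤ → ℂ) (_ : Per m f),
  DifferentiableOn ℂ (th a b c D κ f) {w : ℂ | 0 < w.im}

/-- [MFT] the theta series is a modular form, with the action of the diamond operators -/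
def MFTStmt : Prop := ∀ (a b c : ℤ) (D : ℕ) (_ : 0 < a) (_ : Odd D)
  (_ : b ^ 2 - 4 * a * c = -(D : ℤ)) (κ m : ℕ) (_ : 0 < m) (f : ℤ × ℤ → ℂ) (_ : Per m f),
  ∃ G : MF (D * m ^ 2) (κ + 1), (∀ τ : ℍ, G τ = th a b c D κ f τ) ∧
    ∀ (ℓ : PA (D * m ^ 2)) (τ : ℍ), dFun (D * m ^ 2) (κ + 1) ℓ G τ =
      jacobiSym (ℓ.1 : ℤ) D * th a b c D κ (fun v => f ((ℓ.1 : ℤ) • v)) τ

/-! ### theta series of ideals -/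

variable {K : Type} [Field K] [NumberField K]

/-- the general term of the theta series of the ideal `𝔟` -/
def idT (σ : K →+* ℂ) (𝔟 : Ideal (𝓞 K)) (f : 𝓞 K → ℂ) (κ : ℕ) (w : ℂ) (α : 𝔟) : ℂ :=
  f α * σ (α : 𝓞 K) ^ κ * Complex.exp (2 * Real.pi * Complex.I *
    ((Ideal.absNorm (Ideal.span {(α : 𝓞 K)}) : ℂ) / Ideal.absNorm 𝔟) * w)

/-- the theta series of the ideal `𝔟` -/
def thI (σ : K →+* ℂ) (𝔟 : Ideal (𝓞 K)) (f : 𝓞 K → ℂ) (κ : ℕ) (w : ℂ) : ℂ :=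
  ∑' α : 𝔟, idT σ 𝔟 f κ w α

/-- periodic mod `m` -/
def PerO (m : ℕ) (f : 𝓞 K → ℂ) : Prop := ∀ α β : 𝓞 K, f (α + m * β) = f α

/-- [IB] an ideal has an oriented basis -/
def IBStmt : Prop := ∀ (K : Type) [Field K] [NumberField K] [Algebra.IsQuadraticExtension ℚ K]
  [NumberField.IsTotallyComplex K] (D : ℕ) (_ : NumberField.discr K = -(D : ℤ))
  (σ : K →+* ℂ) (𝔟 : Ideal (𝓞 K)) (_ : 𝔟 ≠ ⊥),
  ∃ (a b c : ℤ) (φ : (ℤ × ℤ) ≃+ 𝔟) (ρ : ℂ), 0 < a ∧ b ^ 2 - 4 * a * c = -(D : ℤ) ∧ ρ ≠ 0 ∧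
    ∀ v, σ (φ v : 𝓞 K) = ρ * ev a b D v ∧
      (Ideal.absNorm (Ideal.span {(φ v : 𝓞 K)}) : ℤ) = Qf a b c v * Ideal.absNorm 𝔟

/-- [THI] theta series of ideals are modular forms (from MFT and IB) -/
def THIStmt : Prop := ∀ (K : Type) [Field K] [NumberField K] [Algebra.IsQuadraticExtension ℚ K]
  [NumberField.IsTotallyComplex K] (D : ℕ) (_ : NumberField.discr K = -(D : ℤ)) (_ : Odd D)
  (σ : K →+* ℂ) (m : ℕ) (_ : 0 < m) (𝔟 : Ideal (𝓞 K)) (_ : 𝔟 ≠ ⊥) (f : 𝓞 K → ℂ)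
  (_ : PerO m f) (κ : ℕ),
  ∃ G : MF (D * m ^ 2) (κ + 1),
    (∀ τ : ℍ, HasSum (idT σ 𝔟 f κ τ) (G τ)) ∧
    ∀ (ℓ : PA (D * m ^ 2)) (τ : ℍ), HasSum (fun α : 𝔟 => jacobiSym (ℓ.1 : ℤ) D *
      idT σ 𝔟 (fun α => f (ℓ.1 * α)) κ τ α) (dFun (D * m ^ 2) (κ + 1) ℓ G τ)

/-- [JAC] the quadratic character -/
def JACStmt : Prop := ∀ (K : Type) [Field K] [NumberField K] [Algebra.IsQuadraticExtension ℚ K]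
  [NumberField.IsTotallyComplex K] (D : ℕ) (_ : NumberField.discr K = -(D : ℤ)) (_ : Odd D)
  (ℓ : ℕ) (_ : ℓ.Prime) (_ : ¬ ℓ ∣ 2 * D),
  (jacobiSym (ℓ : ℤ) D = 1 ∧ ∃ 𝔭 𝔮 : Ideal (𝓞 K), 𝔭 ≠ 𝔮 ∧ 𝔭.IsPrime ∧ 𝔮.IsPrime ∧
      Ideal.absNorm 𝔭 = ℓ ∧ Ideal.absNorm 𝔮 = ℓ ∧ 𝔭 * 𝔮 = Ideal.span {(ℓ : 𝓞 K)}) ∨
  (jacobiSym (ℓ : ℤ) D = -1 ∧ (Ideal.span {(ℓ : 𝓞 K)}).IsPrime)

/-- [SER] the action of `T_ℓ` on theta series of ideals: a series identity -/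
def SERStmt : Prop := ∀ (K : Type) [Field K] [NumberField K] [Algebra.IsQuadraticExtension ℚ K]
  [NumberField.IsTotallyComplex K] (D : ℕ) (_ : NumberField.discr K = -(D : ℤ)) (_ : Odd D)
  (σ : K →+* ℂ) (m : ℕ) (_ : 0 < m) (𝔟 : Ideal (𝓞 K)) (_ : 𝔟 ≠ ⊥) (f : 𝓞 K → ℂ) (κ : ℕ)
  (ℓ : PA (D * m ^ 2)) (G : ℍ → ℂ) (_ : ∀ τ : ℍ, HasSum (idT σ 𝔟 f κ τ) (G τ))
  (_ : ∀ τ : ℍ, HasSum (fun α : 𝔟 => jacobiSym (ℓ.1 : ℤ) D *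
      idT σ 𝔟 (fun α => f (ℓ.1 * α)) κ τ α) (dFun (D * m ^ 2) (κ + 1) ℓ G τ)) (τ : ℍ),
  tFun (D * m ^ 2) (κ + 1) ℓ G τ =
    ∑ᶠ 𝔭 ∈ {𝔭 : Ideal (𝓞 K) | Ideal.absNorm 𝔭 = ℓ.1}, thI σ (𝔟 * 𝔭) f κ τ

/-- [Q1] the coefficient of `q` -/
def Q1Stmt : Prop := ∀ (K : Type) [Field K] [NumberField K] [Algebra.IsQuadraticExtension ℚ K]
  [NumberField.IsTotallyComplex K] (σ : K →+* ℂ) (f : 𝓞 K → ℂ) (κ : ℕ)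
  (s : Finset (Ideal (𝓞 K))) (_ : ∀ 𝔟 ∈ s, 𝔟 ≠ ⊥) (c : Ideal (𝓞 K) → ℂ)
  (_ : ∀ 𝔟 ∈ s, ∀ τ : ℍ, Summable (idT σ 𝔟 f κ τ))
  (_ : ∀ τ : ℍ, ∑ 𝔟 ∈ s, c 𝔟 * thI σ 𝔟 f κ τ = 0),
  ∑ 𝔟 ∈ s, c 𝔟 * ∑ᶠ α ∈ {α : 𝓞 K | Ideal.span {α} = 𝔟}, f α * σ α ^ κ = 0

/-! ### 2-adic blocks -/

/-- [SW] polynomial approximation of the indicator function of a ball on `𝓞 K` -/
def SWStmt : Prop := ∀ (K : Type) [Field K] [NumberField K] [Algebra.IsQuadraticExtension ℚ K]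
  (D : ℕ) (_ : NumberField.discr K = -(D : ℤ)) (_ : Odd D)
  (E : Type) [NontriviallyNormedField E] [NormedAlgebra ℚ_[2] E] [IsUltrametricDist E]
  (ι : K →+* E) (M : ℕ) (ε : ℝ) (_ : 0 < ε),
  ∃ g : Polynomial E, ∀ α : 𝓞 K,
    ‖g.eval (ι α) - (if ‖ι α‖ ≤ (2 : ℝ)⁻¹ ^ M then 1 else 0)‖ < ε

/-- [LIM] a ring homomorphism on the free algebra which is small on the operators vanishing in
small weights extends to `T₂` -/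
def LIMStmt : Prop := ∀ (S : Type) (V : ℕ → Type) [∀ i, Ring (V i)] (g : S → ∀ i, V i)
  (E : Type) [NontriviallyNormedField E] [NormedAlgebra ℚ_[2] E] [IsUltrametricDist E]
  [CompleteSpace E]
  (L : FreeAlgebra ℤ S →ₐ[ℤ] E) (_ : ∀ x, ‖L x‖ ≤ 1)
  (_ : ∀ ε : ℝ, 0 < ε → ∃ k : ℕ, ∀ x : FreeAlgebra ℤ S,
    (∀ i < k, FreeAlgebra.lift ℤ (fun s => g s i) x = 0) → ‖L x‖ < ε),
  ∃ c : ContHom g E, ∀ s, c.lam (gT2 g s) = L (FreeAlgebra.ι ℤ s)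

end Vale.Agent.P022
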