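import Vale.Agent.P022.H472.Lit2
import Vale.Agent.P022.H933.Ext

/-!
P022, stage 3: real quadratic fields (Hecke's theta series of weight one).  Literals.
-/

open scoped ModularForm MatrixGroups Manifold NumberField
open UpperHalfPlane Matrix CongruenceSubgroup

noncomputable section

namespace Vale.Agent.P022.R

open Vale.Agent.P022.X

/-! ### the theta series of an indefinite form -/

/-- the general term: `v` in the fundamental domain `|q v| ≤ |p v| < u² |q v|` of multiplication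
by `η`, `p v * q v > 0` -/
def rT (p q : ℤ × ℤ →+ ℝ) (u : ℝ) (f : ℤ × ℤ → ℂ) (w : ℂ) (v : ℤ × ℤ) : ℂ :=
  if |q v| ≤ |p v| ∧ |p v| < u ^ 2 * |q v| ∧ 0 < p v * q v then
    (if 0 < p v then 1 else -1) * f v *
      Complex.exp (2 * Real.pi * Complex.I * ((p v * q v : ℝ) : ℂ) * w)
  else 0

/-- Hecke's theta series of weight one -/
def thR (p q : ℤ × ℤ →+ ℝ) (u : ℝ) (f : ℤ × ℤ → ℂ) (w : ℂ) : ℂ := ∑' v, rT p q u f w v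

/-- `p q` is the integral form `(a, b, c)` of discriminant `D > 0`, without rational zeros, and
`A` is an automorph multiplying `p` by `u > 1` and `q` by `u⁻¹` -/
structure Dat (p q : ℤ × ℤ →+ ℝ) (a b c : ℤ) (D : ℕ) (u : ℝ) (A : (ℤ × ℤ) ≃+ (ℤ × ℤ)) :
    Prop where
  hD : 0 < D
  disc : b ^ 2 - 4 * a * c = D
  mul : ∀ v, p v * q v = Qf a b c v
  ani : ∀ v, v ≠ 0 → Qf a b c v ≠ 0
  one_lt : 1 < u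
  hp : ∀ v, p (A v) = u * p v
  hq : ∀ v, q (A v) = u⁻¹ * q v

/-- the determinant of `p, q` (its square is `D`) -/
def det (p q : ℤ × ℤ →+ ℝ) : ℝ := p (1, 0) * q (0, 1) - q (1, 0) * p (0, 1)

/-- [RPO] the inversion formula (verified numerically) -/
def RPOStmt : Prop := ∀ (p q : ℤ × ℤ →+ ℝ) (a b c : ℤ) (D : ℕ) (u : ℝ)
  (A : (ℤ × ℤ) ≃+ (ℤ × ℤ)) (_ : Dat p q a b c D u A) (M : ℕ) (_ : 0 < M) (f : ℤ × ℤ → ℂ)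
  (_ : Per M f) (_ : ∀ v, f (A v) = f v) (w : ℂ) (_ : 0 < w.im),
  Summable (rT p q u f w) ∧
  thR p q u f w = 1 / ((M : ℂ) ^ 2 * (det p q : ℂ) * w) *
    thR p (-q) u (hatF M f) (-1 / (D * M ^ 2 * w))

/-- [RLAW] the law for a prime lower right entry -/
def RLAWStmt : Prop := ∀ (p q : ℤ × ℤ →+ ℝ) (a b c : ℤ) (D : ℕ) (u : ℝ)
  (A : (ℤ × ℤ) ≃+ (ℤ × ℤ)) (_ : Dat p q a b c D u A) (M : ℕ) (_ : 0 < M) (f : ℤ × ℤ → ℂ)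
  (_ : Per M f) (_ : ∀ v, f (A v) = f v) (A' B C : ℤ) (ℓ : ℕ) (_ : ℓ.Prime) (_ : ℓ ≠ 2)
  (_ : A' * ℓ - B * C = 1) (_ : ((D * M ^ 2 : ℕ) : ℤ) ∣ C) (w : ℂ) (_ : 0 < w.im),
  thR p q u f ((A' * w + B) / (C * w + ℓ)) =
    jacobiSym (D : ℤ) ℓ * (C * w + ℓ) * thR p q u (fun v => f ((ℓ : ℤ) • v)) w

/-- [RLAWG] the law for an arbitrary odd lower right entry -/
def RLAWGStmt : Prop := ∀ (p q : ℤ × ℤ →+ ℝ) (a b c : ℤ) (D : ℕ) (u : ℝ)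
  (A : (ℤ × ℤ) ≃+ (ℤ × ℤ)) (_ : Dat p q a b c D u A) (M : ℕ) (_ : 0 < M) (f : ℤ × ℤ → ℂ)
  (_ : Per M f) (_ : ∀ v, f (A v) = f v) (A' B C d : ℤ) (_ : Odd d)
  (_ : A' * d - B * C = 1) (_ : ((D * M ^ 2 : ℕ) : ℤ) ∣ C) (w : ℂ) (_ : 0 < w.im),
  thR p q u f ((A' * w + B) / (C * w + d)) =
    jacobiSym (D : ℤ) d.natAbs * (C * w + d) * thR p q u (fun v => f (d • v)) w

/-- [RCOS] expansions at all cusps, with bounded denominators -/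
def RCOSStmt : Prop := ∀ (p q : ℤ × ℤ →+ ℝ) (a b c : ℤ) (D : ℕ) (u : ℝ)
  (A : (ℤ × ℤ) ≃+ (ℤ × ℤ)) (_ : Dat p q a b c D u A) (M : ℕ) (_ : 0 < M) (f : ℤ × ℤ → ℂ)
  (_ : Per M f) (_ : ∀ v, f (A v) = f v) (_ : ∀ v, IsIntegral ℤ (f v))
  (A' B C d : ℤ) (_ : A' * d - B * C = 1),
  ∃ (t : ℕ) (φ : ℂ → ℂ), 0 < t ∧ Exp Zb ((t : ℂ)⁻¹) φ ∧ ∀ w : ℂ, 0 < w.im →
    thR p q u f ((A' * w + B) / (C * w + d)) = (C * w + d) * φ w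

/-! ### the derivative, the auxiliary form of weight one, and the polynomial for `χ₋₄` -/

/-- `F` is holomorphic of weight `k` on `Γ₁(N) ∩ Γ₀(2^s)` with character `ε` at 2, and all its
slashes have expansions with algebraic coefficients of bounded denominator -/
structure Lev (N s k : ℕ) (ε : ℤ → ℤ) (F : ℍ → ℂ) : Prop where
  inv : ∀ γ : SL(2, ℤ), γ ∈ Gamma1 N → (2 ^ s : ℤ) ∣ γ 1 0 →
    F ∣[(k : ℤ)] γ = (ε (γ 1 1) : ℂ) • F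
  exp : ∃ t : ℕ, 0 < t ∧ ∀ γ : SL(2, ℤ), ∃ φ : ℂ → ℂ, Exp Zb ((t : ℂ)⁻¹) φ ∧
    ∀ τ : ℍ, (F ∣[(k : ℤ)] γ) τ = φ τ

/-- `E₂(2^n τ)` -/
def E2n (n : ℕ) (τ : ℍ) : ℂ :=
  EisensteinSeries.E2 ⟨(2 : ℂ) ^ n * τ, by
    have h : ((2 : ℂ) ^ n * (τ : ℂ)).im = 2 ^ n * τ.im := by
      have : ((2 : ℂ) ^ n) = (((2 : ℝ) ^ n : ℝ) : ℂ) := by push_cast; rfl
      rw [this, Complex.re_ofReal_mul |> fun _ => Complex.im_ofReal_mul]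
      rfl
    rw [h]
    exact mul_pos (by positivity) τ.im_pos⟩

/-- the modular derivative `θF - (k/12) 2^n E₂(2^n τ) F`, congruent to `θF` -/
def dd (n k : ℕ) (F : ℍ → ℂ) (τ : ℍ) : ℂ :=
  Derivative.normalizedDerivOfComplex F τ - (k / 12 : ℂ) * 2 ^ n * E2n n τ * F τ

/-- [DD] the modular derivative -/
def DDStmt : Prop :=
  (∀ (N s k n : ℕ) (ε : ℤ → ℤ) (F : ℍ → ℂ), Lev N s k ε F →
    Lev N (max s n) (k + 2) ε (dd n k F)) ∧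
  (∀ (N s k n : ℕ) (ε : ℤ → ℤ) (F : ℍ → ℂ), Lev N s k ε F → ∀ γ : SL(2, ℤ),
    (2 ^ n : ℤ) ∣ γ 1 0 → (dd n k F) ∣[((k + 2 : ℕ) : ℤ)] γ = dd n k (F ∣[(k : ℤ)] γ)) ∧
  (∀ (k n : ℕ) (F : ℍ → ℂ) (a : ℕ → ℂ) (O : Subring ℂ) (_ : ∀ z, IsIntegral ℤ z → z ∈ O)
    (_ : ∀ m : ℕ, Odd m → ((m : ℂ)⁻¹) ∈ O) (x : ℂ) (_ : ∀ i, ∃ y ∈ O, a i = x * y)
    (_ : ∀ τ : ℍ, HasSum (fun i : ℕ => a i * Complex.exp (2 * Real.pi * Complex.I * i * τ)) (F τ)),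
    ∃ a' : ℕ → ℂ, (∀ i, ∃ y ∈ O, 4 * (a' i - i * a i) = 2 ^ n * x * y) ∧
      ∀ τ : ℍ, HasSum (fun i : ℕ => a' i * Complex.exp (2 * Real.pi * Complex.I * i * τ))
        (dd n k F τ))

/-- the character `χ₋₄` -/
def chi4 (d : ℤ) : ℤ := ZMod.χ₄ (d : ZMod 4)

/-- [BB] the form `B = ∑ q^(x² + y²) = 1 + 4(..)` of weight 1 on `Γ₀(4)` with character `χ₋₄` -/
def BBStmt : Prop := ∃ (B : ℍ → ℂ) (h : PowerSeries ℤ),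
  (∀ γ : SL(2, ℤ), (4 : ℤ) ∣ γ 1 0 → B ∣[((1 : ℕ) : ℤ)] γ = (chi4 (γ 1 1) : ℂ) • B) ∧
  (∃ t : ℕ, 0 < t ∧ ∀ γ : SL(2, ℤ), ∃ φ : ℂ → ℂ, Exp Zb ((t : ℂ)⁻¹) φ ∧
    ∀ τ : ℍ, (B ∣[((1 : ℕ) : ℤ)] γ) τ = φ τ) ∧
  ∀ τ : ℍ, HasSum (fun i : ℕ => ((PowerSeries.coeff i (1 + 4 * h) : ℤ) : ℂ) *
    Complex.exp (2 * Real.pi * Complex.I * i * τ)) (B τ)

/-- [PHI] an odd polynomial approximating `χ₋₄` on the power series `d (1 + 4 X)`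
(`x ∑_{j<J} binom(-1/2, j) (x² - 1)^j`) -/
def PHIStmt : Prop := ∀ n : ℕ, ∃ φ : Polynomial ℚ, (∀ i, Even i → φ.coeff i = 0) ∧
  ∀ d : ℤ, Odd d → ∃ P : Polynomial ℤ,
    φ.comp (Polynomial.C (d : ℚ) * (1 + 4 * Polynomial.X)) - Polynomial.C (chi4 d : ℚ) =
      (2 ^ n : ℚ) • P.map (Int.castRingHom ℚ)

/-! ### real quadratic fields -/

section

variable {K : Type} [Field K] [NumberField K]

/-- `sgn(σ₁ α) f(α)` on the elements of positive norm in the fundamental domain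
`|σ₂ α| ≤ |σ₁ α| < u² |σ₂ α|` -/
def FR (σ₁ σ₂ : K →+* ℝ) (u : ℝ) (f : 𝓞 K → ℤ) (α : 𝓞 K) : ℤ :=
  if |σ₂ α| ≤ |σ₁ α| ∧ |σ₁ α| < u ^ 2 * |σ₂ α| ∧ 0 < σ₁ α * σ₂ α then
    (if 0 < σ₁ α then f α else -f α) else 0

/-- the coefficients of `θ^j Θ_{𝔟,f}` -/
def cfR (σ₁ σ₂ : K →+* ℝ) (u : ℝ) (𝔟 : Ideal (𝓞 K)) (f : 𝓞 K → ℤ) (j i : ℕ) : ℤ :=
  ∑ᶠ α ∈ {α : 𝓞 K | α ∈ 𝔟 ∧ Ideal.absNorm (Ideal.span {α}) = i * Ideal.absNorm 𝔟},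
    FR σ₁ σ₂ u f α * (Ideal.absNorm (Ideal.span {α}) : ℤ) ^ j

end

/-- [RIB] coordinates of an ideal of a real quadratic field -/
def RIBStmt : Prop := ∀ (K : Type) [Field K] [NumberField K] [Algebra.IsQuadraticExtension ℚ K]
  (D : ℕ) (_ : NumberField.discr K = (D : ℤ)) (σ₁ σ₂ : K →+* ℝ) (_ : σ₁ ≠ σ₂)
  (𝔟 : Ideal (𝓞 K)) (_ : 𝔟 ≠ ⊥),
  ∃ (a b c : ℤ) (φ : (ℤ × ℤ) ≃+ 𝔟), b ^ 2 - 4 * a * c = (D : ℤ) ∧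
    ∀ v, σ₁ (φ v : 𝓞 K) * σ₂ (φ v : 𝓞 K) = Qf a b c v * Ideal.absNorm 𝔟

/-- [UNIV] the first coefficient of `P G` in terms of the coefficients of the `G | γ_d`, and the
same formula for the formal pairing (`g` any function on `𝓞 K` with finite support on every
shell): one proof by induction on `P` -/
def UNIVStmt : Prop := ∀ (N : ℕ) [NeZero N] (P : FreeAlgebra ℤ (Gen N)),
  ∃ (J : ℕ) (ν : Fin J → ℤ) (d n : Fin J → ℕ),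
    (∀ j, Nat.Coprime (d j) (2 * N)) ∧
    (∀ (κ : ℕ) (G : MF N (κ + 1)) (a : ℕ → ℕ → ℂ)
      (_ : ∀ d : ℕ, Nat.Coprime d (2 * N) → ∀ s : SL(2, ℤ), s ∈ Gamma0 N →
        (((s 1 1 : ℤ) : ZMod N) = d) → ∀ τ : ℍ,
        HasSum (fun i : ℕ => a d i * Complex.exp (2 * Real.pi * Complex.I * i * τ))
          (((G : ℍ → ℂ) ∣[((κ + 1 : ℕ) : ℤ)] s) τ))
      (b : ℕ → ℂ) (_ : ∀ τ : ℍ,
        HasSum (fun i : ℕ => b i * Complex.exp (2 * Real.pi * Complex.I * i * τ))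
          ((FreeAlgebra.lift ℤ (fun s => gHk N s κ) P G : MF N (κ + 1)) τ)),
      b 1 = ∑ j, (ν j : ℂ) * (d j : ℂ) ^ κ * a (d j) (n j)) ∧
    (∀ (K : Type) [Field K] [NumberField K] [Algebra.IsQuadraticExtension ℚ K]
      (χ : ℕ → ℤ) (_ : ∀ a b, χ (a * b) = χ a * χ b) (_ : χ 1 = 1)
      (_ : ∀ ℓ : ℕ, ℓ.Prime → ¬ ℓ ∣ 2 * N →
        (({𝔭 : Ideal (𝓞 K) | Ideal.absNorm 𝔭 = ℓ}.ncard : ℕ) : ℤ) = 1 + χ ℓ ∧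
        ∀ 𝔭 : Ideal (𝓞 K), Ideal.absNorm 𝔭 = ℓ → 𝔭 ^ 2 ≠ Ideal.span {(ℓ : 𝓞 K)})
      (M : Type) [AddCommGroup M] (g : 𝓞 K → M)
      (_ : ∀ i : ℕ, {α : 𝓞 K | Ideal.absNorm (Ideal.span {α}) = i ∧ g α ≠ 0}.Finite)
      (𝔟 : Ideal (𝓞 K)) (_ : 𝔟 ≠ ⊥),
      pair g 𝔟 (Lam K N χ P) = ∑ j, (ν j * χ (d j)) •
        ∑ᶠ α ∈ {α : 𝓞 K | α ∈ 𝔟 ∧ Ideal.absNorm (Ideal.span {α}) = n j * Ideal.absNorm 𝔟},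
          g (d j * α))

/-- the data of a real quadratic field: discriminant `D₁ 2^e`, two embeddings, a unit
`ε₀ ≡ 1 mod 4m` of norm one -/
structure RDat (K : Type) [Field K] [NumberField K] (D₁ e m : ℕ) (σ₁ σ₂ : K →+* ℝ)
    (ε₀ : 𝓞 K) (u : ℝ) : Prop where
  disc : NumberField.discr K = ((D₁ * 2 ^ e : ℕ) : ℤ)
  odd : Odd D₁
  modd : Odd m
  ne : σ₁ ≠ σ₂
  one_lt : 1 < u
  h1 : σ₁ ε₀ = u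
  h2 : σ₂ ε₀ = u⁻¹
  hm : ((4 * m : ℕ) : 𝓞 K) ∣ ε₀ - 1

/-- `χ` is the `2`-part of the quadratic character of discriminant `D₁ 2^e` -/
structure TwoPart (D₁ e : ℕ) (χ : ℤ → ℤ) : Prop where
  val : ∀ d, Odd d → χ d = 1 ∨ χ d = -1
  per : ∀ d, χ (d + 8) = χ d
  mul : ∀ d d', Odd d → Odd d' → χ (d * d') = χ d * χ d'
  rel : ∀ d d' : ℤ, Odd d → IsCoprime d (D₁ : ℤ) → Odd d' → (D₁ : ℤ) ∣ d' - 1 →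
    jacobiSym ((D₁ * 2 ^ e : ℕ) : ℤ) (d' * d).natAbs =
      χ d' * jacobiSym ((D₁ * 2 ^ e : ℕ) : ℤ) d.natAbs

/-- [RCHI] existence of the `2`-part -/
def RCHIStmt : Prop := ∀ (K : Type) [Field K] [NumberField K] [Algebra.IsQuadraticExtension ℚ K]
  (D₁ e : ℕ) (_ : NumberField.discr K = ((D₁ * 2 ^ e : ℕ) : ℤ)) (_ : Odd D₁),
  ∃ χ : ℤ → ℤ, TwoPart D₁ e χ

/-- [LIFT3] the forms `θ^j Θ_{𝔟,f} B^w` are congruent to forms of odd level `D₁ m²`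
(`par = 0, 1` the parity of `w`) -/
def LIFT3Stmt : Prop := ∀ (h : PowerSeries ℤ) (B : ℍ → ℂ)
  (_ : ∀ γ : SL(2, ℤ), (4 : ℤ) ∣ γ 1 0 → B ∣[((1 : ℕ) : ℤ)] γ = (chi4 (γ 1 1) : ℂ) • B)
  (_ : ∃ t : ℕ, 0 < t ∧ ∀ γ : SL(2, ℤ), ∃ φ : ℂ → ℂ, Exp Zb ((t : ℂ)⁻¹) φ ∧
    ∀ τ : ℍ, (B ∣[((1 : ℕ) : ℤ)] γ) τ = φ τ)
  (_ : ∀ τ : ℍ, HasSum (fun i : ℕ => ((PowerSeries.coeff i (1 + 4 * h) : ℤ) : ℂ) *
    Complex.exp (2 * Real.pi * Complex.I * i * τ)) (B τ))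
  (K : Type) [Field K] [NumberField K] [Algebra.IsQuadraticExtension ℚ K]
  (D₁ e m : ℕ) (σ₁ σ₂ : K →+* ℝ) (ε₀ : 𝓞 K) (u : ℝ) (_ : RDat K D₁ e m σ₁ σ₂ ε₀ u)
  (χ : ℤ → ℤ) (_ : TwoPart D₁ e χ) (O : Subring ℂ) (_ : ∀ z, IsIntegral ℤ z → z ∈ O)
  (_ : ∀ m : ℕ, Odd m → ((m : ℂ)⁻¹) ∈ O) (r j n w : ℕ) (𝔟 : Ideal (𝓞 K)) (_ : 𝔟 ≠ ⊥),
  ∃ (k : ℕ) (Φ : (𝓞 K → ℤ) → MF (D₁ * m ^ 2) k),
    1 + 2 * j + w ≤ k ∧ 2 ^ n ∣ k - (1 + 2 * j + w) ∧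
    ∀ f : 𝓞 K → ℤ, Eqv m r (D₁ * m ^ 2) (fun d => χ d * chi4 d ^ w) f →
      (∀ α, f (ε₀ * α) = f α) →
      Cong O n (Φ f) (fun i => ((PowerSeries.coeff i
        (PowerSeries.mk (fun i => cfR σ₁ σ₂ u 𝔟 f j i) *
          (1 + 4 * h) ^ w) : ℤ) : ℂ)) ∧
      ∀ d : ℕ, Nat.Coprime d (2 * (D₁ * m ^ 2)) → ∀ s : SL(2, ℤ), s ∈ Gamma0 (D₁ * m ^ 2) →
        (((s 1 1 : ℤ) : ZMod (D₁ * m ^ 2)) = d) →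
        ((Φ f : ℍ → ℂ) ∣[(k : ℤ)] s) =
          Φ (fun α => jacobiSym ((D₁ * 2 ^ e : ℕ) : ℤ) d * chi4 d ^ w * f (d * α))

/-- [VAN3] the vanishing property for a real quadratic field -/
def VAN3Stmt : Prop := ∀ (K : Type) [Field K] [NumberField K]
  [Algebra.IsQuadraticExtension ℚ K]
  (D₁ e m : ℕ) (σ₁ σ₂ : K →+* ℝ) (ε₀ : 𝓞 K) (u : ℝ) (_ : RDat K D₁ e m σ₁ σ₂ ε₀ u)
  [NeZero (D₁ * m ^ 2)]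
  (χ : ℤ → ℤ) (_ : TwoPart D₁ e χ) (par r j n : ℕ) (𝔟 : Ideal (𝓞 K)) (_ : 𝔟 ≠ ⊥)
  (f : 𝓞 K → ℤ) (_ : Eqv m r (D₁ * m ^ 2) (fun d => χ d * chi4 d ^ par) f)
  (_ : ∀ α, f (ε₀ * α) = f α),
  ∃ k : ℕ, ∀ P : FreeAlgebra ℤ (Gen (D₁ * m ^ 2)),
    (∀ i < k, FreeAlgebra.lift ℤ (fun s => gHk (D₁ * m ^ 2) s i) P = 0) →
      (2 ^ n : ℤ) ∣ pair (fun α => FR σ₁ σ₂ u f α * (Ideal.absNorm (Ideal.span {α}) : ℤ) ^ j) 𝔟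
        (Lam K (D₁ * m ^ 2) (fun ℓ => jacobiSym ((D₁ * 2 ^ e : ℕ) : ℤ) ℓ) P)

/-- `ψ` has tame conductor `m` and is of mixed signature at infinity: `ψ((α)) → sgn(σ₁ α)` as
`α → 1` 2-adically, `α ≡ 1 mod m` -/
def ContR {K : Type} [Field K] [NumberField K] {E : Type} [NontriviallyNormedField E]
    (σ₁ : K →+* ℝ) (m : ℕ) (ψ : Ideal (𝓞 K) →* E) : Prop :=
  ∀ ε : ℝ, 0 < ε → ∃ M : ℕ, ∀ α : 𝓞 K, ((2 ^ M * m : ℕ) : 𝓞 K) ∣ α - 1 →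
    ‖ψ (Ideal.span {α}) - (if 0 < σ₁ α then 1 else -1)‖ < ε

/-- [APP3] approximation of `sgn(σ₁ α) ψ((α))` by sums of `f(α) g(N α)` -/
def APP3Stmt : Prop := ∀ (K : Type) [Field K] [NumberField K]
  [Algebra.IsQuadraticExtension ℚ K]
  (D₁ e m : ℕ) (σ₁ σ₂ : K →+* ℝ) (ε₀ : 𝓞 K) (u : ℝ) (_ : RDat K D₁ e m σ₁ σ₂ ε₀ u)
  (χ : ℤ → ℤ) (_ : TwoPart D₁ e χ) (E : Type)
  [NontriviallyNormedField E] [NormedAlgebra ℚ_[2] E] [IsUltrametricDist E]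
  [FiniteDimensional ℚ_[2] E] (ψ : Ideal (𝓞 K) →* E) (_ : ContR σ₁ m ψ),
  ∃ par : ℕ, ∀ ε : ℝ, 0 < ε → ∃ (J r : ℕ) (f : Fin J → 𝓞 K → ℤ) (g : Fin J → Polynomial E),
    (∀ i, Eqv m r (D₁ * m ^ 2) (fun d => χ d * chi4 d ^ par) (f i) ∧
      ∀ α, f i (ε₀ * α) = f i α) ∧
    ∀ α : 𝓞 K, IsCoprime α ((2 * m : ℕ) : 𝓞 K) → 0 < σ₁ α * σ₂ α →
      ‖(if 0 < σ₁ α then 1 else -1) * ψ (Ideal.span {α}) -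
        ∑ i, (f i α : E) * (g i).eval ((Ideal.absNorm (Ideal.span {α}) : ℕ) : E)‖ < ε

/-- [MAIN3] the theorem on the automorphic side for real quadratic fields -/
def MAIN3Stmt : Prop := ∀ (K : Type) [Field K] [NumberField K]
  [Algebra.IsQuadraticExtension ℚ K]
  (D₁ e m : ℕ) (σ₁ σ₂ : K →+* ℝ) (_ : σ₁ ≠ σ₂)
  (_ : NumberField.discr K = ((D₁ * 2 ^ e : ℕ) : ℤ)) (_ : Odd D₁) (_ : Odd m)
  [NeZero (D₁ * m ^ 2)] (E : Type)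
  [NontriviallyNormedField E] [NormedAlgebra ℚ_[2] E] [IsUltrametricDist E]
  [FiniteDimensional ℚ_[2] E] (ψ : Ideal (𝓞 K) →* E) (_ : ContR σ₁ m ψ),
  ∃ c : ContHom (gHk (D₁ * m ^ 2)) E, ∀ ℓ : PA (D₁ * m ^ 2),
    c.lam (gT2 (gHk (D₁ * m ^ 2)) (Sum.inl ℓ)) =
      (∑ᶠ 𝔭 ∈ {𝔭 : Ideal (𝓞 K) | Ideal.absNorm 𝔭 = ℓ.1}, ψ 𝔭) ∧
    c.lam (gT2 (gHk (D₁ * m ^ 2)) (Sum.inr ℓ)) =
      jacobiSym ((D₁ * 2 ^ e : ℕ) : ℤ) ℓ.1 * ψ (Ideal.span {(ℓ.1 : 𝓞 K)})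

end Vale.Agent.P022.R
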