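import Vale.Agent.P022.H472.Lit
import Vale.Agent.P022.H783.HK

/-!
P022, CM representations: the Hecke generators, formal eigenvalues, literals of the last blocks.
-/

open scoped ModularForm MatrixGroups Manifold NumberField
open UpperHalfPlane Matrix CongruenceSubgroup

noncomputable section

namespace Vale.Agent.P022

/-- the generators: `T_ℓ` (left) and `ℓ S_ℓ` (right), `ℓ ∤ 2N` -/
abbrev Gen (N : ℕ) : Type := PA N ⊕ PA N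

/-- the operators: on `M_(i+1)(Γ₁(N))` the generator `T_ℓ` acts as `T_ℓ` and `ℓ S_ℓ` acts as
`ℓ ^ i ⟨ℓ⟩` -/
def gHk (N : ℕ) [NeZero N] : Gen N → ∀ i : ℕ, Module.End ℂ (MF N (i + 1))
  | Sum.inl ℓ => fun i => H783.Tl (i + 1) ℓ
  | Sum.inr ℓ => fun i => ((ℓ.1 : ℂ) ^ i) • H783.dia (i + 1) ℓ

section

variable {K : Type} [Field K] [NumberField K]

/-- the primes of norm `ℓ`, as an element of the monoid algebra -/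
def frobSum (K : Type) [Field K] [NumberField K] (ℓ : ℕ) : MonoidAlgebra ℤ (Ideal (𝓞 K)) :=
  ∑ᶠ 𝔭 ∈ {𝔭 : Ideal (𝓞 K) | Ideal.absNorm 𝔭 = ℓ}, MonoidAlgebra.single 𝔭 1

/-- the formal eigenvalue of a polynomial in the generators (`χ` the quadratic character) -/
def Lam (K : Type) [Field K] [NumberField K] (N : ℕ) (χ : ℕ → ℤ) :
    FreeAlgebra ℤ (Gen N) →ₐ[ℤ] MonoidAlgebra ℤ (Ideal (𝓞 K)) :=
  FreeAlgebra.lift ℤ (Sum.elim (fun ℓ => frobSum K ℓ.1)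
    (fun ℓ => MonoidAlgebra.single (Ideal.span {(ℓ.1 : 𝓞 K)}) (χ ℓ.1)))

/-- `∑_𝔞 x(𝔞) ∑_{(α) = 𝔟 𝔞} F(α)` -/
def pair {M : Type} [AddCommGroup M] (F : 𝓞 K → M) (𝔟 : Ideal (𝓞 K))
    (x : MonoidAlgebra ℤ (Ideal (𝓞 K))) : M :=
  x.coeff.sum fun 𝔞 n => n • ∑ᶠ α ∈ {α : 𝓞 K | Ideal.span {α} = 𝔟 * 𝔞}, F α

end

/-- [VAN1] a polynomial in the Hecke operators which kills weight `κ + 1` -/
def VAN1Stmt : Prop := ∀ (K : Type) [Field K] [NumberField K] [Algebra.IsQuadraticExtension ℚ K]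
  [NumberField.IsTotallyComplex K] (D : ℕ) (_ : NumberField.discr K = -(D : ℤ)) (_ : Odd D)
  (m : ℕ) (_ : 0 < m) [NeZero (D * m ^ 2)] (𝔟 : Ideal (𝓞 K)) (_ : 𝔟 ≠ ⊥)
  (f : 𝓞 K → ℤ) (_ : ∀ α β : 𝓞 K, f (α + m * β) = f α) (κ : ℕ)
  (P : FreeAlgebra ℤ (Gen (D * m ^ 2)))
  (_ : FreeAlgebra.lift ℤ (fun s => gHk (D * m ^ 2) s κ) P = 0),
  pair (fun α => (f α : K) * (α : K) ^ κ) 𝔟
    (Lam K (D * m ^ 2) (fun ℓ => jacobiSym (ℓ : ℤ) D) P) = 0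

/-- `ψ` (a function on ideals) is continuous with tame conductor `m`, for the topology of `ι`:
`ψ((α)) → 1` as `α → 1` under `ι`, `α ≡ 1 mod m` -/
def Cont {K : Type} [Field K] [NumberField K] {E : Type} [NontriviallyNormedField E]
    (ι : K →+* E) (m : ℕ) (ψ : Ideal (𝓞 K) →* E) : Prop :=
  ∀ ε : ℝ, 0 < ε → ∃ δ : ℝ, 0 < δ ∧ ∀ α : 𝓞 K, (m : 𝓞 K) ∣ α - 1 → ‖ι α - 1‖ < δ →
    ‖ψ (Ideal.span {α}) - 1‖ < ε

/-- [APP] abstract approximation property: on elements prime to `2m` the function `ψ((α))` is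
uniformly approximated by sums of `f(α) g(ι α)`, `f` in the class `𝓕`, `g` a polynomial -/
def App {K : Type} [Field K] [NumberField K] {E : Type} [NontriviallyNormedField E]
    (ι : K →+* E) (m : ℕ) (ψ : Ideal (𝓞 K) →* E) (𝓕 : Set (𝓞 K → ℤ)) : Prop :=
  ∀ ε : ℝ, 0 < ε → ∃ (n : ℕ) (f : Fin n → 𝓞 K → ℤ) (g : Fin n → Polynomial E),
    (∀ i, f i ∈ 𝓕) ∧ ∀ α : 𝓞 K, IsCoprime α ((2 * m : ℕ) : 𝓞 K) →
      ‖ψ (Ideal.span {α}) - ∑ i, (f i α : E) * (g i).eval (ι α)‖ < ε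

/-- [APP1] approximation with the functions periodic mod `m` -/
def APP1Stmt : Prop := ∀ (K : Type) [Field K] [NumberField K] (E : Type)
  [NontriviallyNormedField E] [NormedAlgebra ℚ_[2] E] [IsUltrametricDist E]
  [FiniteDimensional ℚ_[2] E] (ι : K →+* E) (m : ℕ) (_ : Odd m) (ψ : Ideal (𝓞 K) →* E)
  (_ : Cont ι m ψ) (_ : ∀ 𝔞 : Ideal (𝓞 K), IsCoprime 𝔞 (Ideal.span {((2 * m : ℕ) : 𝓞 K)}) →
    ‖ψ 𝔞‖ = 1),
  App ι m ψ {f | ∀ α β : 𝓞 K, f (α + m * β) = f α}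

/-- [NRM] `ψ` has absolute value one on ideals prime to `2m` -/
def NRMStmt : Prop := ∀ (K : Type) [Field K] [NumberField K] (E : Type)
  [NontriviallyNormedField E] [NormedAlgebra ℚ_[2] E] [IsUltrametricDist E]
  [FiniteDimensional ℚ_[2] E] (ι : K →+* E) (m : ℕ) (_ : Odd m) (ψ : Ideal (𝓞 K) →* E)
  (_ : Cont ι m ψ) (𝔞 : Ideal (𝓞 K)) (_ : IsCoprime 𝔞 (Ideal.span {((2 * m : ℕ) : 𝓞 K)})),
  ‖ψ 𝔞‖ = 1

/-- [CLS] an ideal prime to `n` in the class inverse to `𝔞` -/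
def CLSStmt : Prop := ∀ (K : Type) [Field K] [NumberField K] (n : ℕ) (_ : n ≠ 0)
  (𝔞 : Ideal (𝓞 K)) (_ : 𝔞 ≠ ⊥), ∃ (𝔟 : Ideal (𝓞 K)) (α : 𝓞 K), α ≠ 0 ∧
    IsCoprime 𝔟 (Ideal.span {(n : 𝓞 K)}) ∧ 𝔟 * 𝔞 = Ideal.span {α}

/-- [SUP] the formal eigenvalues are supported on ideals prime to `2N` -/
def SUPStmt : Prop := ∀ (K : Type) [Field K] [NumberField K] (N : ℕ) (χ : ℕ → ℤ)
  (P : FreeAlgebra ℤ (Gen N)) (𝔞 : Ideal (𝓞 K)), (Lam K N χ P).coeff 𝔞 ≠ 0 →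
    IsCoprime 𝔞 (Ideal.span {((2 * N : ℕ) : 𝓞 K)})

/-- the vanishing property: a polynomial in the Hecke operators which kills all small weights has
small pairing with `f(α) α^κ` -/
def Van (K : Type) [Field K] [NumberField K] (N : ℕ) [NeZero N] (χ : ℕ → ℤ) {E : Type}
    [NontriviallyNormedField E] (ι : K →+* E) (𝓕 : Set (𝓞 K → ℤ)) : Prop :=
  ∀ f ∈ 𝓕, ∀ (κ : ℕ) (𝔟 : Ideal (𝓞 K)), 𝔟 ≠ ⊥ → ∀ ε : ℝ, 0 < ε → ∃ k : ℕ,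
    ∀ P : FreeAlgebra ℤ (Gen N), (∀ i < k, FreeAlgebra.lift ℤ (fun s => gHk N s i) P = 0) →
      ‖ι (pair (fun α => (f α : K) * (α : K) ^ κ) 𝔟 (Lam K N χ P))‖ < ε

/-- [CORE] approximation + vanishing => the continuous homomorphism
(`ψ(𝔞) = w⁻¹ ∑_c ψ(𝔟_c)⁻¹ ∑_((α) = 𝔟_c 𝔞) ψ((α))`, `w` the number of units) -/
def COREStmt : Prop := ∀ (K : Type) [Field K] [NumberField K]
  [Algebra.IsQuadraticExtension ℚ K] [NumberField.IsTotallyComplex K] (E : Type)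
  [NontriviallyNormedField E] [NormedAlgebra ℚ_[2] E] [IsUltrametricDist E]
  [FiniteDimensional ℚ_[2] E] (ι : K →+* E) (m : ℕ) (_ : Odd m) (N : ℕ) [NeZero N]
  (_ : m ∣ N) (χ : ℕ → ℤ) (ψ : Ideal (𝓞 K) →* E)
  (_ : ∀ 𝔞 : Ideal (𝓞 K), IsCoprime 𝔞 (Ideal.span {((2 * m : ℕ) : 𝓞 K)}) → ‖ψ 𝔞‖ = 1)
  (𝓕 : Set (𝓞 K → ℤ)) (_ : App ι m ψ 𝓕) (_ : Van K N χ ι 𝓕),
  ∃ c : ContHom (gHk N) E, ∀ ℓ : PA N,
    c.lam (gT2 (gHk N) (Sum.inl ℓ)) = (∑ᶠ 𝔭 ∈ {𝔭 : Ideal (𝓞 K) | Ideal.absNorm 𝔭 = ℓ.1}, ψ 𝔭) ∧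
    c.lam (gT2 (gHk N) (Sum.inr ℓ)) = χ ℓ.1 * ψ (Ideal.span {(ℓ.1 : 𝓞 K)})

/-- [MAIN1] the theorem on the automorphic side, discriminant odd -/
def MAIN1Stmt : Prop := ∀ (K : Type) [Field K] [NumberField K]
  [Algebra.IsQuadraticExtension ℚ K] [NumberField.IsTotallyComplex K]
  (D : ℕ) (_ : NumberField.discr K = -(D : ℤ)) (_ : Odd D) (E : Type)
  [NontriviallyNormedField E] [NormedAlgebra ℚ_[2] E] [IsUltrametricDist E]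
  [FiniteDimensional ℚ_[2] E] (ι : K →+* E) (m : ℕ) (_ : Odd m) [NeZero (D * m ^ 2)]
  (ψ : Ideal (𝓞 K) →* E) (_ : Cont ι m ψ),
  ∃ c : ContHom (gHk (D * m ^ 2)) E, ∀ ℓ : PA (D * m ^ 2),
    c.lam (gT2 (gHk (D * m ^ 2)) (Sum.inl ℓ)) =
      (∑ᶠ 𝔭 ∈ {𝔭 : Ideal (𝓞 K) | Ideal.absNorm 𝔭 = ℓ.1}, ψ 𝔭) ∧
    c.lam (gT2 (gHk (D * m ^ 2)) (Sum.inr ℓ)) =
      jacobiSym (ℓ.1 : ℤ) D * ψ (Ideal.span {(ℓ.1 : 𝓞 K)})

end Vale.Agent.P022
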