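import Mathlib

/-!
P022: the algebras `T_{≤ k}` and the inverse limit `T₂ = lim ℤ₂ ⊗ T_{≤ k}` for a family of
operators `g s i` (`s` a generator, `i` the weight index).
-/

open scoped TensorProduct

noncomputable section

namespace Vale.Agent.P022

variable {S : Type} {V : ℕ → Type} [∀ i, Ring (V i)] (g : S → ∀ i, V i)

/-- block diagonal operators on the first `k` weights -/
abbrev EW (V : ℕ → Type) (k : ℕ) : Type := ∀ i : Fin k, V i

/-- the generator `s` on the first `k` weights -/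
def gk (k : ℕ) (s : S) : EW V k := fun i => g s i

/-- the `ℤ`-algebra generated by the operators on the first `k` weights -/
def HA (k : ℕ) : Subalgebra ℤ (EW V k) := Algebra.adjoin ℤ (Set.range (gk g k))

/-- restriction to fewer weights -/
def resW {k k' : ℕ} (h : k ≤ k') : EW V k' →ₐ[ℤ] EW V k where
  toFun x i := x (Fin.castLE h i)
  map_one' := rfl
  map_mul' _ _ := rfl
  map_zero' := rfl
  map_add' _ _ := rfl
  commutes' _ := rfl

theorem resW_mem {k k' : ℕ} (h : k ≤ k') (x : EW V k') (hx : x ∈ HA g k') :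
    resW h x ∈ HA g k := by
  have h1 : HA g k' ≤ (HA g k).comap (resW h) := by
    refine Algebra.adjoin_le ?_
    rintro _ ⟨s, rfl⟩
    exact Algebra.subset_adjoin ⟨s, rfl⟩
  exact h1 hx

/-- the transition maps -/
def resH {k k' : ℕ} (h : k ≤ k') : HA g k' →ₐ[ℤ] HA g k :=
  ((resW h).comp (HA g k').val).codRestrict (HA g k) (fun x => resW_mem g h x x.2)

/-- `lim ℤ₂ ⊗ T_{≤ k}` -/
def T2 : Subalgebra ℤ_[2] (∀ k, ℤ_[2] ⊗[ℤ] HA g k) where
  carrier := {x | ∀ k k' (h : k ≤ k'),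
    Algebra.TensorProduct.map (AlgHom.id ℤ_[2] ℤ_[2]) (resH g h) (x k') = x k}
  mul_mem' {x y} hx hy k k' h := by
    rw [Pi.mul_apply, map_mul, hx k k' h, hy k k' h, Pi.mul_apply]
  add_mem' {x y} hx hy k k' h := by
    rw [Pi.add_apply, map_add, hx k k' h, hy k k' h, Pi.add_apply]
  algebraMap_mem' r k k' h := by
    rw [Pi.algebraMap_apply, AlgHom.commutes, Pi.algebraMap_apply]

/-- the generator in `T_{≤ k}` -/
def gH (k : ℕ) (s : S) : HA g k := ⟨gk g k s, Algebra.subset_adjoin ⟨s, rfl⟩⟩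

/-- the generator `s` as an element of `T₂` -/
def gT2 (s : S) : T2 g :=
  ⟨fun k => 1 ⊗ₜ gH g k s, fun k k' h => by
    rw [Algebra.TensorProduct.map_tmul, map_one]
    rfl⟩

/-- `x` is small: its component at level `k` lies in `2 ^ M` times `ℤ₂ ⊗ T_{≤ k}` -/
def Small (k M : ℕ) (x : T2 g) : Prop :=
  ∃ y : ℤ_[2] ⊗[ℤ] HA g k, (x : ∀ k, ℤ_[2] ⊗[ℤ] HA g k) k = (2 ^ M : ℤ) • y

/-- a continuous `ℤ₂`-algebra homomorphism from `T₂` to the closed unit ball of `E`
(the sets `Small k M` are the basic neighbourhoods of `0` in the inverse limit of the `2`-adic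
topologies) -/
structure ContHom (E : Type) [NontriviallyNormedField E] [NormedAlgebra ℚ_[2] E] where
  lam : T2 g →+* E
  lam_alg : ∀ z : ℤ_[2], lam (algebraMap ℤ_[2] (T2 g) z) = algebraMap ℚ_[2] E z
  lam_le : ∀ x, ‖lam x‖ ≤ 1
  lam_cont : ∀ ε : ℝ, 0 < ε → ∃ k M : ℕ, ∀ x, Small g k M x → ‖lam x‖ < ε

end Vale.Agent.P022
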